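import Vale.Agent.P269.G1I.H598.Ode
import Vale.Agent.P269.G1I.H440.Descend

/-!
# [G1], [G2] truncation of the coefficient ring `ℂ[[Q]]` at `Q ^ (D + 1)`
-/

namespace Vale.Agent.P269.LN.H980

open MvPowerSeries (pderiv)

/-- **[G1]** `pderiv` commutes with a change of the coefficient ring. -/
theorem pderiv_map {σ R S : Type*} [CommRing R] [CommRing S] (φ : R →+* S) (i : σ)
    (f : MvPowerSeries σ R) :
    MvPowerSeries.pderiv S i (MvPowerSeries.map φ f) =
      MvPowerSeries.map φ (MvPowerSeries.pderiv R i f) := by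
  ext α
  rw [MvPowerSeries.coeff_pderiv, MvPowerSeries.coeff_map, MvPowerSeries.coeff_map,
    MvPowerSeries.coeff_pderiv]
  simp

/-- The coefficient ring modulo `Q ^ (D + 1)`. -/
abbrev Tr (D : ℕ) : Type :=
  PowerSeries ℂ ⧸ Ideal.span {(PowerSeries.X : PowerSeries ℂ) ^ (D + 1)}

/-- The projection. -/
noncomputable def tr (D : ℕ) : PowerSeries ℂ →+* Tr D :=
  Ideal.Quotient.mk (Ideal.span {(PowerSeries.X : PowerSeries ℂ) ^ (D + 1)})

noncomputable example (D : ℕ) : Algebra ℚ (Tr D) := inferInstance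

/-- **[G2]** -/
theorem tr_eq_zero_iff {D : ℕ} {f : PowerSeries ℂ} :
    tr D f = 0 ↔ ∀ d ≤ D, PowerSeries.coeff d f = 0 := by
  unfold tr
  rw [Ideal.Quotient.eq_zero_iff_mem, Ideal.mem_span_singleton, PowerSeries.X_pow_dvd_iff]
  constructor
  · intro h d hd
    exact h d (by omega)
  · intro h d hd
    exact h d (by omega)

variable {n : ℕ}

/-- All coefficients vanish up to degree `D` in `Q`. -/
def Van (D : ℕ) (f : MvPowerSeries (Fin n) (PowerSeries ℂ)) : Prop :=
  ∀ α : Fin n →₀ ℕ, ∀ d ≤ D, PowerSeries.coeff d (MvPowerSeries.coeff α f) = 0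

theorem van_iff {D : ℕ} {f : MvPowerSeries (Fin n) (PowerSeries ℂ)} :
    Van D f ↔ MvPowerSeries.map (tr D) f = 0 := by
  constructor
  · intro h
    ext α
    rw [MvPowerSeries.coeff_map, map_zero, tr_eq_zero_iff]
    exact h α
  · intro h α
    have h1 := congrArg (MvPowerSeries.coeff α) h
    rw [MvPowerSeries.coeff_map, map_zero, tr_eq_zero_iff] at h1
    exact h1

theorem Van.add {D : ℕ} {f g : MvPowerSeries (Fin n) (PowerSeries ℂ)} (hf : Van D f)
    (hg : Van D g) : Van D (f + g) := by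
  rw [van_iff] at *
  rw [map_add, hf, hg, add_zero]

theorem Van.sub {D : ℕ} {f g : MvPowerSeries (Fin n) (PowerSeries ℂ)} (hf : Van D f)
    (hg : Van D g) : Van D (f - g) := by
  rw [van_iff] at *
  rw [map_sub, hf, hg, sub_zero]

theorem Van.neg {D : ℕ} {f : MvPowerSeries (Fin n) (PowerSeries ℂ)} (hf : Van D f) :
    Van D (-f) := by
  rw [van_iff] at *
  rw [map_neg, hf, neg_zero]

theorem Van.mul_left {D : ℕ} {f : MvPowerSeries (Fin n) (PowerSeries ℂ)}
    (g : MvPowerSeries (Fin n) (PowerSeries ℂ)) (hf : Van D f) : Van D (g * f) := by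
  rw [van_iff] at *
  rw [map_mul, hf, mul_zero]

theorem Van.mul_right {D : ℕ} {f : MvPowerSeries (Fin n) (PowerSeries ℂ)}
    (g : MvPowerSeries (Fin n) (PowerSeries ℂ)) (hf : Van D f) : Van D (f * g) := by
  rw [van_iff] at *
  rw [map_mul, hf, zero_mul]

theorem Van.sum {D : ℕ} {ι : Type*} {s : Finset ι}
    {f : ι → MvPowerSeries (Fin n) (PowerSeries ℂ)} (hf : ∀ i ∈ s, Van D (f i)) :
    Van D (∑ i ∈ s, f i) := by
  rw [van_iff, map_sum]
  exact Finset.sum_eq_zero fun i hi => van_iff.1 (hf i hi)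

theorem van_zero (D : ℕ) : Van D (0 : MvPowerSeries (Fin n) (PowerSeries ℂ)) := by
  rw [van_iff, map_zero]

theorem Van.pderiv {D : ℕ} {f : MvPowerSeries (Fin n) (PowerSeries ℂ)} (i : Fin n)
    (hf : Van D f) : Van D (MvPowerSeries.pderiv (PowerSeries ℂ) i f) := by
  rw [van_iff] at *
  rw [← pderiv_map, hf, map_zero]

/-- **[P4] up to degree `D`** -/
theorem ode_van {N D : ℕ} (a : Fin N → MvPowerSeries (Fin n) (PowerSeries ℂ))
    (h0 : ∀ p, ∀ d ≤ D, PowerSeries.coeff d (MvPowerSeries.constantCoeff (a p)) = 0)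
    (M : Fin n → Fin N → Fin N → MvPowerSeries (Fin n) (PowerSeries ℂ))
    (h : ∀ i p, Van D (MvPowerSeries.pderiv (PowerSeries ℂ) i (a p) - ∑ q, M i p q * a q)) :
    ∀ p, Van D (a p) := by
  intro p
  rw [van_iff]
  refine G1.H598.ode_zero (fun p => MvPowerSeries.map (tr D) (a p)) (fun p => ?_)
    (fun i p q => MvPowerSeries.map (tr D) (M i p q)) (fun i p => ?_) p
  · rw [← MvPowerSeries.coeff_zero_eq_constantCoeff_apply, MvPowerSeries.coeff_map,
      MvPowerSeries.coeff_zero_eq_constantCoeff_apply, tr_eq_zero_iff]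
    exact h0 p
  · have h1 := van_iff.1 (h i p)
    rw [map_sub, map_sum, sub_eq_zero] at h1
    rw [pderiv_map, h1]
    exact Finset.sum_congr rfl fun q _ => map_mul _ _ _

/-- **[DE] up to degree `D`** -/
theorem descend_van {D : ℕ} {β : Type*} [Fintype β]
    (lev : Fin n → ℕ) (i0 : β → Fin n) (hi : ∀ b, lev (i0 b) = 0)
    (w : Fin n → β → MvPowerSeries (Fin n) (PowerSeries ℂ))
    (f : MvPowerSeries (Fin n) (PowerSeries ℂ))
    (h : ∀ i, Van D (MvPowerSeries.pderiv (PowerSeries ℂ) i f -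
      ∑ b, w i b * MvPowerSeries.pderiv (PowerSeries ℂ) (i0 b) f))
    (h0 : ∀ α : Fin n →₀ ℕ, (∀ i, 0 < lev i → α i = 0) → ∀ d ≤ D,
      PowerSeries.coeff d (MvPowerSeries.coeff α f) = 0) :
    Van D f := by
  rw [van_iff]
  refine G1.H440.descend lev i0 hi (fun i b => MvPowerSeries.map (tr D) (w i b)) _
    (fun i => ?_) (fun α hα => ?_)
  · have h1 := van_iff.1 (h i)
    rw [map_sub, map_sum, sub_eq_zero] at h1
    rw [pderiv_map, h1]
    exact Finset.sum_congr rfl fun q _ => by rw [map_mul, pderiv_map]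
  · rw [MvPowerSeries.coeff_map, tr_eq_zero_iff]
    exact h0 α hα

end Vale.Agent.P269.LN.H980
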