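import Vale.Agent.P269.LN.H980.SmallGr
import Vale.Agent.P269.G1I.T.H302_DF
import Vale.Agent.P269.H597.MainA
import Vale.Agent.P269.LN.H660.VirLine

/-!
# the constraints in genus one up to degree `D`
-/

set_option autoImplicit false

namespace Vale.Agent.P269.LN.H980

open Vale.Agent.P269.CI Vale.Agent.P269.G1 Vale.Agent.P269.G1.H302

variable {X : CompleteIntersection} {F : ℕ → ℕ → List (Ins X) → ℂ}

/-- descendants, up to degree `D` -/
theorem descend_gr (hF : IsGW X F) (h1 : IsGenusOne F) (k D : ℕ)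
    (h : ∀ d ≤ D, ∀ (L : List (Fin (X.dim + 1))),
      virasoro X F (k + 1) 1 d (L.map (hpow X)) = 0)
    (d : ℕ) (hd : d ≤ D) (L : List (Ins X)) (hL : ∀ x ∈ L, IsAmb X x) :
    virasoro X F (k + 1) 1 d L = 0 := by
  obtain ⟨M, hM⟩ := exists_bound L
  set E := famAll X M with hE
  obtain ⟨L', rfl⟩ := exists_map E.ins L fun x hx => famAll_ins M x (hL x hx) (hM x hx)
  have hV : Van D (sr E (fun d L => virasoro X F (k + 1) 1 d L)) := by
    refine descend_van (fun i => (E.e i).2) E.i0 (fun b => by rw [E.e_i0])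
      (fun i b => wB E h1 i 0 b) _ (fun i => ?_) fun α hα e he => ?_
    · rw [sm_vir E hF h1 k i, sub_self]
      exact van_zero D
    · rw [coeff_sr]
      have e1 : (lst α).map E.ins = ((lst α).map fun i => (E.e i).1).map (hpow X) := by
        rw [List.map_map]
        refine List.map_congr_left fun i hi => ?_
        have h2 : (E.e i).2 = 0 := by
          by_contra h3
          exact mem_lst hi (hα i (Nat.pos_of_ne_zero h3))
        change ((Sum.inl (E.e i).1, (E.e i).2) : Ins X) = (Sum.inl (E.e i).1, 0)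
        rw [h2]
      rw [coeff_ratSmul, PowerSeries.coeff_mk, e1, h e he, smul_zero]
  have h0 : sr E (fun d L => if d ≤ D then virasoro X F (k + 1) 1 d L else 0) =
      sr E (fun _ _ => 0) := by
    ext α : 1
    rw [coeff_sr, coeff_sr]
    congr 1
    ext e
    rw [PowerSeries.coeff_mk, PowerSeries.coeff_mk]
    show (if e ≤ D then virasoro X F (k + 1) 1 e ((lst α).map E.ins) else 0) = 0
    split_ifs with he
    · have h2 := hV α e he
      rw [coeff_sr, coeff_ratSmul, PowerSeries.coeff_mk, smul_eq_zero] at h2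
      refine h2.resolve_left (inv_ne_zero ?_)
      exact_mod_cast Finset.prod_ne_zero_iff.2 fun i _ => Nat.factorial_ne_zero _
    · rfl
  have h5 := sr_inj E _ _ (fun d L M h => ?_) (fun _ _ _ _ => rfl) h0 d L'
  · beta_reduce at h5
    rwa [if_pos hd] at h5
  · show (if d ≤ D then _ else _) = (if d ≤ D then _ else _)
    split_ifs
    · exact symF_vir E hF k d L M h
    · rfl

/-- **the constraints in genus one up to degree `D`, ambient insertions** -/
theorem vir_graded (hF : IsGW X F) (h1 : IsGenusOne F) (hX : 3 ≤ X.dim) (hm : 1 ≤ excess X)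
    (hi : 2 ≤ index X) (D : ℕ)
    (hz : ∀ k d : ℕ, 1 ≤ d → d ≤ D → index X * d = k → k + 2 ≤ excess X →
      virasoro X F (k + 1) 1 d [] = 0) (K d : ℕ) (hd : d ≤ D) (L : List (Ins X))
    (hL : ∀ x ∈ L, IsAmb X x) : virasoro X F K 1 d L = 0 := by
  rcases Nat.eq_zero_or_pos K with h0 | h0
  · subst h0
    exact Vale.Agent.P269.H597.virasoro_zero hF 1 d L
  · obtain ⟨k, rfl⟩ := Nat.exists_eq_add_of_le' h0
    exact descend_gr hF h1 k D
      (fun e he L => small_gr hF h1 hX hm hi D hz k e he L) d hd L hL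

/-- **degree at most one, all Fano `X` of index at least two** (`IsLine`) -/
theorem vir_degree_one (hF : IsGW X F) (h1 : IsGenusOne F) (hL : IsLine F) (hX : 3 ≤ X.dim)
    (hm : 1 ≤ excess X) (hi : 2 ≤ index X) (K d : ℕ) (hd : d ≤ 1) (L : List (Ins X))
    (hA : ∀ x ∈ L, IsAmb X x) : virasoro X F K 1 d L = 0 := by
  have h3 := Vale.Agent.P269.G1.index_eq X
  refine vir_graded hF h1 hX hm hi 1 (fun k e he1 he2 hk hk2 => ?_) K d hd L hA
  obtain rfl : e = 1 := by omega
  have hk1 : index X = k := by rw [← hk]; simp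
  exact Vale.Agent.P269.LN.vir_line hF h1 hL hi (by omega) k hk1

end Vale.Agent.P269.LN.H980
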